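import Vale.Agent.P050.R3.H115.Jn
import Vale.Agent.P050.R3.H257.Walk2
import Mathlib.Logic.Function.DependsOn

/-!
# P050, cycles with ears: the law of a folded ear

An ear of length `l + 2 s` between the positions `0` and `l` of a closed walk of length
`l + s + c1`: its vertex number `l + s` has the law of the position `l + s` of the closed walk
given the positions `0`, `l`; the rest of the ear consists of two bridges.
-/

namespace Vale.Agent.P050.Ears

open Finset Matrix

open Vale.Agent.P050.H257 (PW PW_sum PW_prod sum_cons)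

variable {S : Type*} [Fintype S] [DecidableEq S]

/-- the density factor of the folded ear -/
noncomputable def foldTh (A : Matrix S S ℝ) (μ : S → ℝ) (l s c1 : ℕ) (u y v : S) : ℝ :=
  kap A μ c1 u y / (kap A μ (l + s) u y * kap A μ (s + c1) u v)

/-- the law of the inner vertices of the folded ear from `u` to `v` -/
noncomputable def foldLaw (A : Matrix S S ℝ) (μ : S → ℝ) (l s c1 : ℕ) {K : ℕ}
    (hy : l + s - 1 < K) (u : S) (e : Fin K → S) (v : S) : ℝ :=
  PW A K u e v / μ v * foldTh A μ l s c1 u (e ⟨l + s - 1, hy⟩) v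

section Scalars

variable {A : Matrix S S ℝ} {μ : S → ℝ} {c : S → Bool} (h : Rev A μ c)

include h

theorem kap_pos_of {k : ℕ} {u v : S} (h1 : 0 < (A ^ k) u v) : 0 < kap A μ k u v :=
  div_pos h1 (h.pos v)

theorem pow_pos_trans {a b : ℕ} {u v w : S} (h1 : 0 < (A ^ a) u v) (h2 : 0 < (A ^ b) v w) :
    0 < (A ^ (a + b)) u w := by
  rw [pow_add, Matrix.mul_apply]
  exact Finset.sum_pos' (fun x _ => mul_nonneg (h.pow_nonneg _ _ _) (h.pow_nonneg _ _ _))
    ⟨v, mem_univ v, mul_pos h1 h2⟩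

theorem pow_pos_symm {k : ℕ} {u v : S} (h1 : 0 < (A ^ k) u v) : 0 < (A ^ k) v u := by
  have h2 := h.pow_rev k u v
  have h3 : 0 < μ v * (A ^ k) v u := h2 ▸ mul_pos (h.pos u) h1
  exact pos_of_mul_pos_right h3 (h.pos v).le

theorem kap_zero_of (s c1 : ℕ) {u y v : S} (h0 : kap A μ (s + c1) u v = 0) :
    kap A μ c1 u y * kap A μ s y v = 0 := by
  rw [add_comm s c1, h.kap_add] at h0
  have h1 := (Finset.sum_eq_zero_iff_of_nonneg fun w _ => mul_nonneg (mul_nonneg
    (h.kap_nonneg c1 u w) (h.kap_nonneg s w v)) (h.pos w).le).1 h0 y (mem_univ y)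
  rcases mul_eq_zero.1 h1 with h2 | h2
  · exact h2
  · exact absurd h2 (h.pos y).ne'

theorem scalar_a (l s c1 : ℕ) {u y v : S} (hl : 0 < (A ^ l) u v) (hs : 0 < (A ^ s) v y) :
    (A ^ (s + c1)) v u * ((A ^ (l + s)) u y * (1 / μ y * foldTh A μ l s c1 u y v)) =
      (A ^ c1) y u := by
  have h1 : 0 < kap A μ (l + s) u y := kap_pos_of h (pow_pos_trans h hl hs)
  have h2 : 0 < kap A μ s y v := by
    rw [h.kap_symm]; exact kap_pos_of h hs
  rw [h.pow_eq' (s + c1) u v, h.pow_eq (l + s) u y, h.pow_eq' c1 u y]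
  unfold foldTh
  have hy := (h.pos y).ne'
  have h1' := h1.ne'
  by_cases h3 : kap A μ (s + c1) u v = 0
  · have h4 := kap_zero_of h s c1 (y := y) h3
    have h5 : kap A μ c1 u y = 0 := by
      rcases mul_eq_zero.1 h4 with h5 | h5
      · exact h5
      · exact absurd h5 h2.ne'
    rw [h3, h5]; simp
  · field_simp

theorem scalar_b (l s c1 : ℕ) {u y : S} (hy : 0 < (A ^ (l + s)) u y) :
    ∑ v, (A ^ l) u v * (A ^ (s + c1)) v u *
      ((A ^ s) y v / μ v * foldTh A μ l s c1 u y v) = (A ^ c1) y u := by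
  have h1 : 0 < kap A μ (l + s) u y := kap_pos_of h hy
  have e1 : ∀ v, (A ^ l) u v * (A ^ (s + c1)) v u *
      ((A ^ s) y v / μ v * foldTh A μ l s c1 u y v) =
      (A ^ l) u v * (A ^ s) v y * (μ u * kap A μ c1 u y / kap A μ (l + s) u y / μ y) := by
    intro v
    rw [h.pow_eq' (s + c1) u v]
    have e2 : (A ^ s) y v / μ v = (A ^ s) v y / μ y := h.kap_symm s y v
    rw [e2]
    unfold foldTh
    have hy := (h.pos y).ne'
    have h1' := h1.ne'
    by_cases h3 : kap A μ (s + c1) u v = 0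
    · have h4 := kap_zero_of h s c1 (y := y) h3
      rw [h3]
      rcases mul_eq_zero.1 h4 with h5 | h5
      · rw [h5]; simp
      · have h6 : (A ^ s) v y = 0 := by
          rw [h.pow_eq s v y, h.kap_symm, h5, zero_mul]
        rw [h6]; simp
    · field_simp
  simp only [e1]
  rw [← Finset.sum_mul, ← Matrix.mul_apply, ← pow_add, h.pow_eq (l + s) u y, h.pow_eq' c1 u y]
  have hy := (h.pos y).ne'
  have h1' := h1.ne'
  field_simp

theorem scalar_c (l s c1 : ℕ) {u y v : S} (hl : 0 < (A ^ l) u v)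
    (hC : 0 < kap A μ (s + c1) u v) :
    (A ^ (l + s)) u y * ((A ^ s) y v / μ v * foldTh A μ l s c1 u y v) =
      kap A μ c1 u y * kap A μ s y v * μ y / kap A μ (s + c1) u v := by
  rw [h.pow_eq (l + s) u y, h.pow_eq s y v]
  unfold foldTh
  have hv := (h.pos v).ne'
  have hC' := hC.ne'
  by_cases h1 : kap A μ (l + s) u y = 0
  · have h2 : (A ^ s) v y = 0 := by
      by_contra hne
      have h3 := pow_pos_trans h hl (lt_of_le_of_ne (h.pow_nonneg s v y) (Ne.symm hne))
      exact absurd h1 (kap_pos_of h h3).ne'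
    have h4 : kap A μ s y v = 0 := by
      rw [h.kap_symm]; unfold kap; rw [h2, zero_div]
    rw [h1, h4]; simp
  · field_simp

end Scalars

omit [DecidableEq S] in
/-- reversal of words is a bijection -/
theorem sum_rv {k : ℕ} (G : (Fin k → S) → ℝ) : ∑ Y : Fin k → S, G (rv Y) = ∑ Y, G Y := by
  have hinv : Function.Involutive (rv : (Fin k → S) → (Fin k → S)) := by
    intro Y; funext i; simp [rv]
  exact Equiv.sum_comp hinv.toPerm G

section Law

variable {A : Matrix S S ℝ} {μ : S → ℝ} {c : S → Bool} (h : Rev A μ c)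

include h

/-- (F1) the law of the folded ear has total mass one -/
theorem fold_sum {l s c1 K : ℕ} (hl : 1 ≤ l) (hs : 1 ≤ s) (hK : K + 1 = l + 2 * s) (u v : S)
    (h1 : 0 < (A ^ l) u v) (h2 : 0 < kap A μ (s + c1) u v) :
    ∑ e : Fin K → S, foldLaw A μ l s c1 (by omega) u e v = 1 := by
  obtain ⟨l, rfl⟩ := Nat.exists_eq_add_of_le' hl
  obtain ⟨s, rfl⟩ := Nat.exists_eq_add_of_le' hs
  obtain rfl : K = s + (s + (l + 1) + 1) := by omega
  rw [sum_jn (b := s) (s + (l + 1))]
  have e1 : ∀ (X : Fin (s + (l + 1)) → S) (y : S) (Y : Fin s → S),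
      foldLaw A μ (l + 1) (s + 1) c1 (by omega) u (jn y Y (s + (l + 1)) X) v =
      PW A (s + (l + 1)) u X y * (PW A s y Y v / μ v * foldTh A μ (l + 1) (s + 1) c1 u y v) := by
    intro X y Y
    unfold foldLaw
    rw [PW_jn]
    have e2 : (⟨l + 1 + (s + 1) - 1, by omega⟩ : Fin (s + (s + (l + 1) + 1))) =
        ⟨s + (l + 1), by omega⟩ := Fin.ext (by simp only []; omega)
    rw [e2, jn_eq]
    ring
  simp only [e1]
  rw [Finset.sum_comm]
  have e3 : ∀ y : S, ∑ X : Fin (s + (l + 1)) → S, ∑ Y : Fin s → S,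
      PW A (s + (l + 1)) u X y * (PW A s y Y v / μ v * foldTh A μ (l + 1) (s + 1) c1 u y v) =
      kap A μ c1 u y * kap A μ (s + 1) y v * μ y / kap A μ (s + 1 + c1) u v := by
    intro y
    rw [← scalar_c h (l + 1) (s + 1) c1 h1 h2]
    simp only [← Finset.mul_sum, ← Finset.sum_mul, ← Finset.sum_div, PW_sum]
    rw [show s + (l + 1) + 1 = l + 1 + (s + 1) by ring]
  simp only [e3]
  rw [← Finset.sum_div]
  rw [add_comm (s + 1) c1, h.kap_add] at h2 ⊢
  exact div_self h2.ne'

/-- (F2) the initial part of the folded ear has the law of an arc of the closed walk -/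
theorem fold_marg_long {l s c1 K k : ℕ} (hl : 1 ≤ l) (hs : 1 ≤ s) (hc : 1 ≤ c1)
    (hK : K + 1 = l + 2 * s) (hk : k + 1 = l + s + c1) (F : (Fin (k + 1) → S) → ℝ)
    (hF : DependsOn F {i | (i : ℕ) ≤ l + s}) :
    ∑ x : Fin (k + 1) → S, cyc A x * (∑ e : Fin K → S,
      foldLaw A μ l s c1 (by omega) (x 0) e (x ⟨l, by omega⟩) *
        F (fun i => if hi : 1 ≤ (i : ℕ) ∧ (i : ℕ) ≤ l + s then e ⟨i - 1, by omega⟩ else x i)) =
      ∑ x, cyc A x * F x := by
  obtain ⟨l, rfl⟩ := Nat.exists_eq_add_of_le' hl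
  obtain ⟨s, rfl⟩ := Nat.exists_eq_add_of_le' hs
  obtain ⟨c1, rfl⟩ := Nat.exists_eq_add_of_le' hc
  obtain rfl : K = s + (s + (l + 1) + 1) := by omega
  obtain rfl : k = c1 + (s + (l + 1) + 1) := by omega
  -- the folded walk depends on the first position and on the ear only
  let B : S → (Fin (s + (s + (l + 1) + 1)) → S) → (Fin (c1 + (s + (l + 1) + 1) + 1) → S) :=
    fun u e i => if hi : 1 ≤ (i : ℕ) ∧ (i : ℕ) ≤ l + 1 + (s + 1) then
      e ⟨i - 1, by omega⟩ else u
  let f : S → S → ℝ := fun u v => ∑ e : Fin (s + (s + (l + 1) + 1)) → S,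
    foldLaw A μ (l + 1) (s + 1) (c1 + 1) (by omega) u e v * F (B u e)
  have e1 : ∀ x : Fin (c1 + (s + (l + 1) + 1) + 1) → S, (∑ e : Fin (s + (s + (l + 1) + 1)) → S,
      foldLaw A μ (l + 1) (s + 1) (c1 + 1) (by omega) (x 0) e (x ⟨l + 1, by omega⟩) *
        F (fun i => if hi : 1 ≤ (i : ℕ) ∧ (i : ℕ) ≤ l + 1 + (s + 1) then
          e ⟨i - 1, by omega⟩ else x i)) = f (x 0) (x ⟨l + 1, by omega⟩) := by
    intro x
    refine Finset.sum_congr rfl fun e _ => ?_
    congr 1
    apply hF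
    intro i hi
    have hi' : (i : ℕ) ≤ l + 1 + (s + 1) := hi
    by_cases h1 : 1 ≤ (i : ℕ)
    · simp only [B]
      rw [dif_pos ⟨h1, hi'⟩, dif_pos ⟨h1, hi'⟩]
    · simp only [B]
      rw [dif_neg (fun h2 => h1 h2.1), dif_neg (fun h2 => h1 h2.1)]
      congr 1
      apply Fin.ext
      simp only [Fin.val_zero]
      omega
  simp only [e1]
  have e2 := cyc_pair A (0 : Fin (c1 + (s + (l + 1) + 1) + 1)) ⟨l + 1, by omega⟩ f
  rw [e2, sub_zero]
  have e3 := sum_cons (k := c1 + (s + (l + 1) + 1))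
    (fun x : Fin (c1 + (s + (l + 1) + 1) + 1) → S => cyc A x * F x)
  rw [e3]
  refine Finset.sum_congr rfl fun u _ => ?_
  -- the right side
  have e4 : ∑ z : Fin (c1 + (s + (l + 1) + 1)) → S,
      cyc A (Fin.cons u z : Fin (c1 + (s + (l + 1) + 1) + 1) → S) *
        F (Fin.cons u z : Fin (c1 + (s + (l + 1) + 1) + 1) → S) =
      ∑ X : Fin (s + (l + 1)) → S, ∑ y : S, PW A (s + (l + 1)) u X y *
        ((A ^ (c1 + 1)) y u * F (B u (jn y (fun _ : Fin s => u) (s + (l + 1)) X))) := by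
    rw [sum_jn (b := c1) (s + (l + 1))]
    refine Finset.sum_congr rfl fun X _ => Finset.sum_congr rfl fun y _ => ?_
    rw [← PW_sum A c1 y u, Finset.sum_mul, Finset.mul_sum]
    refine Finset.sum_congr rfl fun Z _ => ?_
    rw [cyc_eq, H257.cyc_cons, PW_jn, mul_assoc]
    congr 2
    apply hF
    intro i hi
    have hi' : (i : ℕ) ≤ l + 1 + (s + 1) := hi
    obtain ⟨i, hib⟩ := i
    cases i with
    | zero =>
      simp only [B]
      rw [dif_neg (fun h2 => absurd h2.1 (by simp))]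
      rfl
    | succ i =>
      simp only at hi'
      simp only [B]
      rw [dif_pos (by omega)]
      have e5 : (Fin.cons u (jn y Z (s + (l + 1)) X) :
          Fin (c1 + (s + (l + 1) + 1) + 1) → S) ⟨i + 1, hib⟩ =
          jn y Z (s + (l + 1)) X ⟨i, by omega⟩ := rfl
      rw [e5]
      rcases lt_or_ge i (s + (l + 1)) with hi2 | hi2
      · rw [jn_lt y Z (s + (l + 1)) X i hi2]
        exact (jn_lt y (fun _ : Fin s => u) (s + (l + 1)) X i hi2 (by omega)).symm
      · have hi3 : i = s + (l + 1) := by omega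
        subst hi3
        rw [jn_eq y Z (s + (l + 1)) X]
        exact (jn_eq y (fun _ : Fin s => u) (s + (l + 1)) X (by omega)).symm
  rw [e4]
  -- the left side
  have e6 : ∀ v, f u v = ∑ X : Fin (s + (l + 1)) → S, ∑ y : S, PW A (s + (l + 1)) u X y *
      ((A ^ (s + 1)) y v / μ v * foldTh A μ (l + 1) (s + 1) (c1 + 1) u y v *
        F (B u (jn y (fun _ : Fin s => u) (s + (l + 1)) X))) := by
    intro v
    simp only [f]
    rw [sum_jn (b := s) (s + (l + 1))]
    refine Finset.sum_congr rfl fun X _ => Finset.sum_congr rfl fun y _ => ?_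
    rw [← PW_sum A s y v, Finset.sum_div, Finset.sum_mul, Finset.sum_mul, Finset.mul_sum]
    refine Finset.sum_congr rfl fun Y _ => ?_
    have e7 : foldLaw A μ (l + 1) (s + 1) (c1 + 1) (by omega) u (jn y Y (s + (l + 1)) X) v =
        PW A (s + (l + 1)) u X y *
          (PW A s y Y v / μ v * foldTh A μ (l + 1) (s + 1) (c1 + 1) u y v) := by
      unfold foldLaw
      rw [PW_jn]
      have e2 : (⟨l + 1 + (s + 1) - 1, by omega⟩ : Fin (s + (s + (l + 1) + 1))) =
          ⟨s + (l + 1), by omega⟩ := Fin.ext (by simp only []; omega)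
      rw [e2, jn_eq]
      ring
    have e8 : F (B u (jn y Y (s + (l + 1)) X)) =
        F (B u (jn y (fun _ : Fin s => u) (s + (l + 1)) X)) := by
      apply hF
      intro i hi
      have hi' : (i : ℕ) ≤ l + 1 + (s + 1) := hi
      simp only [B]
      by_cases h1 : 1 ≤ (i : ℕ)
      · rw [dif_pos ⟨h1, hi'⟩, dif_pos ⟨h1, hi'⟩]
        rcases lt_or_ge ((i : ℕ) - 1) (s + (l + 1)) with hi2 | hi2
        · rw [jn_lt y Y (s + (l + 1)) X _ hi2, jn_lt y _ (s + (l + 1)) X _ hi2]
        · have hi3 : (i : ℕ) - 1 = s + (l + 1) := by omega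
          have e9 : ∀ (hb : (i : ℕ) - 1 < s + (s + (l + 1) + 1)),
              (⟨(i : ℕ) - 1, hb⟩ : Fin (s + (s + (l + 1) + 1))) = ⟨s + (l + 1), by omega⟩ :=
            fun hb => Fin.ext hi3
          rw [e9, jn_eq, jn_eq]
      · rw [dif_neg (fun h2 => h1 h2.1), dif_neg (fun h2 => h1 h2.1)]
    rw [e7, e8]
    ring
  simp only [e6]
  simp only [Finset.mul_sum]
  rw [Finset.sum_comm]
  refine Finset.sum_congr rfl fun X _ => ?_
  rw [Finset.sum_comm]
  refine Finset.sum_congr rfl fun y _ => ?_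
  rcases (PW_nonneg' h.nonneg (s + (l + 1)) u X y).eq_or_lt with h0 | h0
  · rw [← h0]; simp
  · have hy : 0 < (A ^ (l + 1 + (s + 1))) u y := by
      rcases (h.pow_nonneg (s + (l + 1) + 1) u y).eq_or_lt with h2 | h2
      · exact absurd (PW_zero h.nonneg _ u X y h2.symm) h0.ne'
      · rw [show l + 1 + (s + 1) = s + (l + 1) + 1 by ring]; exact h2
    have e10 := scalar_b h (l + 1) (s + 1) (c1 + 1) hy
    rw [← e10, Finset.sum_mul, Finset.mul_sum]
    refine Finset.sum_congr rfl fun v _ => ?_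
    rw [show c1 + (s + (l + 1) + 1) + 1 - (l + 1) = s + 1 + (c1 + 1) by omega]
    ring

/-- (F3) the arc `0, …, l` followed by the end of the folded ear, read backwards, has the law of
an arc of the closed walk -/
theorem fold_marg_short {l s c1 K k : ℕ} (hl : 1 ≤ l) (hs : 1 ≤ s) (hc : 1 ≤ c1)
    (hK : K + 1 = l + 2 * s) (hk : k + 1 = l + s + c1) (F : (Fin (k + 1) → S) → ℝ)
    (hF : DependsOn F {i | (i : ℕ) ≤ l + s}) :
    ∑ x : Fin (k + 1) → S, cyc A x * (∑ e : Fin K → S,
      foldLaw A μ l s c1 (by omega) (x 0) e (x ⟨l, by omega⟩) *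
        F (fun i => if hi : l + 1 ≤ (i : ℕ) ∧ (i : ℕ) ≤ l + s then e ⟨K - (i - l), by omega⟩
          else x i)) =
      ∑ x, cyc A x * F x := by
  obtain ⟨l, rfl⟩ := Nat.exists_eq_add_of_le' hl
  obtain ⟨s, rfl⟩ := Nat.exists_eq_add_of_le' hs
  obtain ⟨c1, rfl⟩ := Nat.exists_eq_add_of_le' hc
  obtain rfl : K = s + (s + (l + 1) + 1) := by omega
  obtain rfl : k = c1 + (s + (l + 1) + 1) := by omega
  -- the walk `u, X1, v, X2, y` followed by `u`s
  let B : S → (Fin l → S) → S → (Fin s → S) → S → (Fin (c1 + (s + (l + 1) + 1) + 1) → S) :=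
    fun u X1 v X2 y => (Fin.cons u (jn y (fun _ : Fin c1 => u) (s + (l + 1)) (jn v X2 l X1)) :
      Fin (c1 + (s + (l + 1) + 1) + 1) → S)
  have e3 := sum_cons (k := c1 + (s + (l + 1) + 1))
    (fun x : Fin (c1 + (s + (l + 1) + 1) + 1) → S => cyc A x * F x)
  have e3' := sum_cons (k := c1 + (s + (l + 1) + 1))
    (fun x : Fin (c1 + (s + (l + 1) + 1) + 1) → S => cyc A x *
      (∑ e : Fin (s + (s + (l + 1) + 1)) → S,
      foldLaw A μ (l + 1) (s + 1) (c1 + 1) (by omega) (x 0) e (x ⟨l + 1, by omega⟩) *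
        F (fun i => if hi : l + 1 + 1 ≤ (i : ℕ) ∧ (i : ℕ) ≤ l + 1 + (s + 1) then
          e ⟨s + (s + (l + 1) + 1) - (i - (l + 1)), by omega⟩ else x i)))
  rw [e3, e3']
  refine Finset.sum_congr rfl fun u _ => ?_
  rw [sum_jn (b := c1) (s + (l + 1)), sum_jn (b := c1) (s + (l + 1))]
  rw [sum_jn (b := s) l, sum_jn (b := s) l]
  refine Finset.sum_congr rfl fun X1 _ => Finset.sum_congr rfl fun v _ => ?_
  -- values of the walk
  have w1 : ∀ (y : S) (Z : Fin c1 → S) (X2 : Fin s → S),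
      (Fin.cons u (jn y Z (s + (l + 1)) (jn v X2 l X1)) :
        Fin (c1 + (s + (l + 1) + 1) + 1) → S) ⟨l + 1, by omega⟩ = v := by
    intro y Z X2
    have a1 : (Fin.cons u (jn y Z (s + (l + 1)) (jn v X2 l X1)) :
        Fin (c1 + (s + (l + 1) + 1) + 1) → S) ⟨l + 1, by omega⟩ =
        jn y Z (s + (l + 1)) (jn v X2 l X1) ⟨l, by omega⟩ := rfl
    rw [a1, jn_lt y Z (s + (l + 1)) _ l (by omega), jn_eq]
  have w2 : ∀ (y : S) (Z : Fin c1 → S) (X2 : Fin s → S),
      cyc A (Fin.cons u (jn y Z (s + (l + 1)) (jn v X2 l X1)) :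
        Fin (c1 + (s + (l + 1) + 1) + 1) → S) =
      PW A l u X1 v * (PW A s v X2 y * PW A c1 y Z u) := by
    intro y Z X2
    rw [cyc_eq, H257.cyc_cons, PW_jn, PW_jn]
    ring
  -- the right side
  have r1 : ∑ X2 : Fin s → S, ∑ y : S, ∑ Z : Fin c1 → S,
      cyc A (Fin.cons u (jn y Z (s + (l + 1)) (jn v X2 l X1)) :
        Fin (c1 + (s + (l + 1) + 1) + 1) → S) *
      F (Fin.cons u (jn y Z (s + (l + 1)) (jn v X2 l X1)) :
        Fin (c1 + (s + (l + 1) + 1) + 1) → S) =
      ∑ y : S, ∑ Y : Fin s → S, PW A l u X1 v * (PW A s v (rv Y) y *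
        ((A ^ (c1 + 1)) y u * F (B u X1 v (rv Y) y))) := by
    rw [Finset.sum_comm]
    refine Finset.sum_congr rfl fun y _ => ?_
    rw [sum_rv (k := s) fun X2 => PW A l u X1 v * (PW A s v X2 y *
        ((A ^ (c1 + 1)) y u * F (B u X1 v X2 y)))]
    refine Finset.sum_congr rfl fun X2 _ => ?_
    rw [← PW_sum A c1 y u, Finset.sum_mul, Finset.mul_sum, Finset.mul_sum]
    refine Finset.sum_congr rfl fun Z _ => ?_
    rw [w2]
    have a2 : F (Fin.cons u (jn y Z (s + (l + 1)) (jn v X2 l X1)) :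
        Fin (c1 + (s + (l + 1) + 1) + 1) → S) = F (B u X1 v X2 y) := by
      apply hF
      intro i hi
      have hi' : (i : ℕ) ≤ l + 1 + (s + 1) := hi
      obtain ⟨i, hib⟩ := i
      cases i with
      | zero => rfl
      | succ i =>
        simp only at hi'
        show jn y Z (s + (l + 1)) (jn v X2 l X1) ⟨i, by omega⟩ =
          jn y (fun _ : Fin c1 => u) (s + (l + 1)) (jn v X2 l X1) ⟨i, by omega⟩
        rcases lt_or_ge i (s + (l + 1)) with hi2 | hi2
        · rw [jn_lt y Z (s + (l + 1)) _ i hi2, jn_lt y _ (s + (l + 1)) _ i hi2]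
        · have hi3 : i = s + (l + 1) := by omega
          subst hi3
          rw [jn_eq, jn_eq]
    rw [a2]
    ring
  rw [r1]
  -- the left side
  have l1 : ∀ (y' : S) (Z : Fin c1 → S) (X2 : Fin s → S),
      (∑ e : Fin (s + (s + (l + 1) + 1)) → S,
      foldLaw A μ (l + 1) (s + 1) (c1 + 1) (by omega)
        ((Fin.cons u (jn y' Z (s + (l + 1)) (jn v X2 l X1)) :
          Fin (c1 + (s + (l + 1) + 1) + 1) → S) 0) e
        ((Fin.cons u (jn y' Z (s + (l + 1)) (jn v X2 l X1)) :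
          Fin (c1 + (s + (l + 1) + 1) + 1) → S) ⟨l + 1, by omega⟩) *
        F (fun i => if hi : l + 1 + 1 ≤ (i : ℕ) ∧ (i : ℕ) ≤ l + 1 + (s + 1) then
          e ⟨s + (s + (l + 1) + 1) - (i - (l + 1)), by omega⟩ else
          (Fin.cons u (jn y' Z (s + (l + 1)) (jn v X2 l X1)) :
          Fin (c1 + (s + (l + 1) + 1) + 1) → S) i)) =
      ∑ y : S, ∑ Y : Fin s → S, (A ^ (l + 1 + (s + 1))) u y * (PW A s y Y v / μ v *
        foldTh A μ (l + 1) (s + 1) (c1 + 1) u y v * F (B u X1 v (rv Y) y)) := by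
    intro y' Z X2
    rw [w1, Fin.cons_zero, sum_jn (b := s) (s + (l + 1)), Finset.sum_comm]
    refine Finset.sum_congr rfl fun y _ => ?_
    rw [Finset.sum_comm]
    refine Finset.sum_congr rfl fun Y _ => ?_
    have hA : (A ^ (l + 1 + (s + 1))) u y = ∑ X, PW A (s + (l + 1)) u X y := by
      rw [PW_sum, show l + 1 + (s + 1) = s + (l + 1) + 1 by ring]
    rw [hA, Finset.sum_mul]
    refine Finset.sum_congr rfl fun X _ => ?_
    have e7 : foldLaw A μ (l + 1) (s + 1) (c1 + 1) (by omega) u (jn y Y (s + (l + 1)) X) v =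
        PW A (s + (l + 1)) u X y *
          (PW A s y Y v / μ v * foldTh A μ (l + 1) (s + 1) (c1 + 1) u y v) := by
      unfold foldLaw
      rw [PW_jn]
      have e2 : (⟨l + 1 + (s + 1) - 1, by omega⟩ : Fin (s + (s + (l + 1) + 1))) =
          ⟨s + (l + 1), by omega⟩ := Fin.ext (by simp only []; omega)
      rw [e2, jn_eq]
      ring
    rw [e7]
    have e8 : F (fun i => if hi : l + 1 + 1 ≤ (i : ℕ) ∧ (i : ℕ) ≤ s + (l + 1) + 1 then
          (jn y Y (s + (l + 1)) X) ⟨s + (s + (l + 1) + 1) - (i - (l + 1)), by omega⟩ else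
          (Fin.cons u (jn y' Z (s + (l + 1)) (jn v X2 l X1)) :
          Fin (c1 + (s + (l + 1) + 1) + 1) → S) i) = F (B u X1 v (rv Y) y) := by
      apply hF
      intro i hi
      have hi' : (i : ℕ) ≤ l + 1 + (s + 1) := hi
      obtain ⟨i, hib⟩ := i
      simp only at hi'
      by_cases h1 : l + 1 + 1 ≤ i
      · show (if hi : l + 1 + 1 ≤ i ∧ i ≤ s + (l + 1) + 1 then _ else _) = _
        rw [dif_pos ⟨h1, by omega⟩]
        obtain ⟨i, rfl⟩ := Nat.exists_eq_add_of_le' (show 1 ≤ i by omega)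
        show _ = jn y (fun _ : Fin c1 => u) (s + (l + 1)) (jn v (rv Y) l X1) ⟨i, by omega⟩
        rcases lt_or_ge i (s + (l + 1)) with hi2 | hi2
        · -- a vertex of the last bridge
          rw [jn_lt y _ (s + (l + 1)) _ i hi2]
          obtain ⟨t, ht⟩ : ∃ t, i = l + 1 + t := ⟨i - (l + 1), by omega⟩
          subst ht
          rw [jn_gt v (rv Y) l X1 t (by omega)]
          have a3 : (⟨s + (s + (l + 1) + 1) - (l + 1 + t + 1 - (l + 1)), by omega⟩ :
              Fin (s + (s + (l + 1) + 1))) = ⟨s + (l + 1) + 1 + (s - 1 - t), by omega⟩ := by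
            apply Fin.ext
            show s + (s + (l + 1) + 1) - (l + 1 + t + 1 - (l + 1)) =
              s + (l + 1) + 1 + (s - 1 - t)
            omega
          rw [a3, jn_gt y Y (s + (l + 1)) X (s - 1 - t) (by omega)]
          unfold rv
          congr 1
          apply Fin.ext
          simp only [Fin.val_rev]
          omega
        · have hi3 : i = s + (l + 1) := by omega
          subst hi3
          rw [jn_eq]
          have a3 : (⟨s + (s + (l + 1) + 1) - (s + (l + 1) + 1 - (l + 1)), by omega⟩ :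
              Fin (s + (s + (l + 1) + 1))) = ⟨s + (l + 1), by omega⟩ := by
            apply Fin.ext
            show s + (s + (l + 1) + 1) - (s + (l + 1) + 1 - (l + 1)) = s + (l + 1)
            omega
          rw [a3, jn_eq]
      · show (if hi : l + 1 + 1 ≤ i ∧ i ≤ s + (l + 1) + 1 then _ else _) = _
        rw [dif_neg (fun h2 => h1 h2.1)]
        cases i with
        | zero => rfl
        | succ i =>
          show jn y' Z (s + (l + 1)) (jn v X2 l X1) ⟨i, by omega⟩ =
            jn y (fun _ : Fin c1 => u) (s + (l + 1)) (jn v (rv Y) l X1) ⟨i, by omega⟩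
          rw [jn_lt y' Z (s + (l + 1)) _ i (by omega), jn_lt y _ (s + (l + 1)) _ i (by omega)]
          rcases lt_or_ge i l with hi2 | hi2
          · rw [jn_lt v X2 l X1 i hi2, jn_lt v (rv Y) l X1 i hi2]
          · have hi3 : i = l := by omega
            subst hi3
            rw [jn_eq, jn_eq]
    have e9 : F (fun i => if hi : l + 1 + 1 ≤ (i : ℕ) ∧ (i : ℕ) ≤ l + 1 + (s + 1) then
          (jn y Y (s + (l + 1)) X) ⟨s + (s + (l + 1) + 1) - (i - (l + 1)), by omega⟩ else
          (Fin.cons u (jn y' Z (s + (l + 1)) (jn v X2 l X1)) :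
          Fin (c1 + (s + (l + 1) + 1) + 1) → S) i) = F (B u X1 v (rv Y) y) := by
      rw [← e8]
      congr 1
      funext i
      by_cases h1 : l + 1 + 1 ≤ (i : ℕ) ∧ (i : ℕ) ≤ l + 1 + (s + 1)
      · rw [dif_pos h1, dif_pos ⟨h1.1, by omega⟩]
      · rw [dif_neg h1, dif_neg (fun h2 => h1 ⟨h2.1, by omega⟩)]
    rw [e9]
    ring
  simp only [l1, w2]
  -- sum over the rest of the closed walk
  have l2 : ∀ R : ℝ, ∑ X2 : Fin s → S, ∑ y : S, ∑ Z : Fin c1 → S,
      PW A l u X1 v * (PW A s v X2 y * PW A c1 y Z u) * R =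
      PW A l u X1 v * (A ^ (s + 1 + (c1 + 1))) v u * R := by
    intro R
    rw [Finset.sum_comm]
    have a4 : ∀ y : S, ∑ X2 : Fin s → S, ∑ Z : Fin c1 → S,
        PW A l u X1 v * (PW A s v X2 y * PW A c1 y Z u) * R =
        PW A l u X1 v * ((A ^ (s + 1)) v y * (A ^ (c1 + 1)) y u) * R := by
      intro y
      rw [← PW_sum A s v y, ← PW_sum A c1 y u, Finset.sum_mul_sum, Finset.mul_sum, Finset.sum_mul]
      refine Finset.sum_congr rfl fun X2 _ => ?_
      rw [Finset.mul_sum, Finset.sum_mul]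
    simp only [a4]
    rw [← Finset.sum_mul, ← Finset.mul_sum, ← Matrix.mul_apply, ← pow_add]
  rw [l2, Finset.mul_sum]
  refine Finset.sum_congr rfl fun y _ => ?_
  rw [Finset.mul_sum]
  refine Finset.sum_congr rfl fun Y _ => ?_
  -- the identity for fixed `u, X1, v, y, Y`
  rcases (PW_nonneg' h.nonneg l u X1 v).eq_or_lt with h0 | h0
  · rw [← h0]; simp
  have hPY : PW A s y Y v / μ v = PW A s v (rv Y) y / μ y := by
    have := PW_rv h s y Y v
    rw [div_eq_div_iff (h.pos v).ne' (h.pos y).ne']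
    linarith
  rw [hPY]
  rcases (PW_nonneg' h.nonneg s v (rv Y) y).eq_or_lt with h1 | h1
  · rw [← h1]; simp
  have hl1 : 0 < (A ^ (l + 1)) u v := by
    rcases (h.pow_nonneg (l + 1) u v).eq_or_lt with h2 | h2
    · exact absurd (PW_zero h.nonneg _ u X1 v h2.symm) h0.ne'
    · exact h2
  have hs1 : 0 < (A ^ (s + 1)) v y := by
    rcases (h.pow_nonneg (s + 1) v y).eq_or_lt with h2 | h2
    · exact absurd (PW_zero h.nonneg _ v (rv Y) y h2.symm) h1.ne'
    · exact h2
  rw [← scalar_a h (l + 1) (s + 1) (c1 + 1) hl1 hs1]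
  ring

/-- (F4) the gain of a folded ear -/
theorem fold_log (b : Bool) (l s m : ℕ) :
    tr A c b (l + (s + (l + s + 2 * m))) *
      Real.log (tr A c b (l + (s + (l + s + 2 * m)))) ≤
    (∑ u, ∑ v, (if c u = b then (A ^ l) u v * (A ^ (s + (l + s + 2 * m))) v u *
      Real.log (kap A μ (s + (l + s + 2 * m)) u v) else 0)) +
    ∑ u, ∑ y, (if c u = b then (A ^ (l + s)) u y * (A ^ (l + s + 2 * m)) y u *
      (Real.log (kap A μ (l + s) u y) - Real.log (kap A μ (l + s + 2 * m) u y)) else 0) := by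
  have h3 := h.log_long b (s + (l + s + 2 * m)) l
  rw [show s + (l + s + 2 * m) + l = l + (s + (l + s + 2 * m)) by ring] at h3
  have e3 : ∑ u, ∑ v, (if c u = b then (A ^ (s + (l + s + 2 * m))) u v * (A ^ l) v u *
      Real.log (kap A μ (s + (l + s + 2 * m)) u v) else 0) =
      ∑ u, ∑ v, (if c u = b then (A ^ l) u v * (A ^ (s + (l + s + 2 * m))) v u *
        Real.log (kap A μ (s + (l + s + 2 * m)) u v) else 0) := by
    refine Finset.sum_congr rfl fun u _ => Finset.sum_congr rfl fun v _ => ?_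
    rw [h.pow_eq _ u v, h.pow_eq' l u v, h.pow_eq l u v, h.pow_eq' _ u v]
    split_ifs
    · ring
    · rfl
  rw [e3] at h3
  have h4 : 0 ≤ ∑ u, ∑ y, (if c u = b then (A ^ (l + s)) u y * (A ^ (l + s + 2 * m)) y u *
      (Real.log (kap A μ (l + s) u y) - Real.log (kap A μ (l + s + 2 * m) u y)) else 0) := by
    refine Finset.sum_nonneg fun u _ => ?_
    by_cases hu : c u = b
    · simp only [if_pos hu]
      exact h.log_short (l + s) m u
    · simp only [if_neg hu, Finset.sum_const_zero]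
      exact le_refl _
  linarith

end Law

end Vale.Agent.P050.Ears
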