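import Vale.Agent.P050.R3.H115.RevNum
import Vale.Agent.P050.R3.H257.Walk

/-!
# P050, cycles with ears: cutting a walk at a vertex
-/

namespace Vale.Agent.P050.Ears

open Finset Matrix

open Vale.Agent.P050.H257 (PW PW_sum PW_prod sum_cons)

variable {S : Type*}

/-- the word `X`, then `y`, then `Y` -/
def jn {b : ℕ} (y : S) (Y : Fin b → S) : (a : ℕ) → (Fin a → S) → (Fin (b + (a + 1)) → S)
  | 0, _ => (Fin.cons y Y : Fin (b + 1) → S)
  | a + 1, X => (Fin.cons (X 0) (jn y Y a (Fin.tail X)) : Fin (b + (a + 1) + 1) → S)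

theorem jn_lt {b : ℕ} (y : S) (Y : Fin b → S) (a : ℕ) (X : Fin a → S) (i : ℕ)
    (hi : i < a) (hi' : i < b + (a + 1)) : jn y Y a X ⟨i, hi'⟩ = X ⟨i, hi⟩ := by
  induction a generalizing i with
  | zero => omega
  | succ a ih =>
    cases i with
    | zero => rfl
    | succ i =>
      have := ih (Fin.tail X) i (by omega) (by omega)
      exact this

theorem jn_eq {b : ℕ} (y : S) (Y : Fin b → S) (a : ℕ) (X : Fin a → S)
    (hi' : a < b + (a + 1)) : jn y Y a X ⟨a, hi'⟩ = y := by
  induction a with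
  | zero => rfl
  | succ a ih =>
    exact ih (Fin.tail X) (by omega)

theorem jn_gt {b : ℕ} (y : S) (Y : Fin b → S) (a : ℕ) (X : Fin a → S) (i : ℕ)
    (hi : i < b) (hi' : a + 1 + i < b + (a + 1)) :
    jn y Y a X ⟨a + 1 + i, hi'⟩ = Y ⟨i, hi⟩ := by
  induction a with
  | zero =>
    have e : (⟨0 + 1 + i, hi'⟩ : Fin (b + (0 + 1))) = ((⟨i, hi⟩ : Fin b).succ : Fin (b + 1)) := by
      apply Fin.ext
      show 0 + 1 + i = i + 1
      omega
    rw [e]
    rfl
  | succ a ih =>
    have h1 := ih (Fin.tail X) (by omega)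
    have e : (⟨a + 1 + 1 + i, hi'⟩ : Fin (b + (a + 1 + 1))) =
        ((⟨a + 1 + i, by omega⟩ : Fin (b + (a + 1))).succ : Fin (b + (a + 1) + 1)) := by
      apply Fin.ext
      show a + 1 + 1 + i = a + 1 + i + 1
      omega
    rw [e]
    exact h1

theorem PW_jn [Fintype S] (A : Matrix S S ℝ) {b : ℕ} (y : S) (Y : Fin b → S) (a : ℕ)
    (X : Fin a → S) (u w : S) :
    PW A (b + (a + 1)) u (jn y Y a X) w = PW A a u X y * PW A b y Y w := by
  induction a generalizing u with
  | zero => rfl
  | succ a ih =>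
    have h1 : PW A (b + (a + 1 + 1)) u (jn y Y (a + 1) X) w =
        A u (X 0) * PW A (b + (a + 1)) (X 0) (jn y Y a (Fin.tail X)) w := rfl
    rw [h1, ih]
    have h2 : PW A (a + 1) u X y = A u (X 0) * PW A a (X 0) (Fin.tail X) y := rfl
    rw [h2]; ring

theorem sum_jn [Fintype S] {b : ℕ} (a : ℕ) (G : (Fin (b + (a + 1)) → S) → ℝ) :
    ∑ z, G z = ∑ X : Fin a → S, ∑ y : S, ∑ Y : Fin b → S, G (jn y Y a X) := by
  induction a with
  | zero =>
    have h1 : ∑ z, G z = ∑ y : S, ∑ Y : Fin b → S, G (Fin.cons y Y : Fin (b + 1) → S) :=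
      sum_cons (k := b) G
    rw [h1]
    simp only [Fintype.sum_unique]
    rfl
  | succ a ih =>
    have h1 : ∑ z, G z = ∑ x : S, ∑ z : Fin (b + (a + 1)) → S,
        G (Fin.cons x z : Fin (b + (a + 1) + 1) → S) := sum_cons (k := b + (a + 1)) G
    rw [h1]
    have h2 : ∀ x : S, ∑ z : Fin (b + (a + 1)) → S,
        G (Fin.cons x z : Fin (b + (a + 1) + 1) → S) =
        ∑ X : Fin a → S, ∑ y : S, ∑ Y : Fin b → S,
          G (Fin.cons x (jn y Y a X) : Fin (b + (a + 1) + 1) → S) := by
      intro x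
      exact ih fun z => G (Fin.cons x z : Fin (b + (a + 1) + 1) → S)
    simp only [h2]
    rw [sum_cons (k := a)]
    rfl

theorem PW_nonneg' [Fintype S] {A : Matrix S S ℝ} (hA : ∀ u v, 0 ≤ A u v) (k : ℕ) (u : S)
    (z : Fin k → S) (w : S) : 0 ≤ PW A k u z w := by
  rw [PW_prod]
  exact mul_nonneg (Finset.prod_nonneg fun _ _ => hA _ _) (hA _ _)

theorem PW_zero [Fintype S] [DecidableEq S] {A : Matrix S S ℝ} (hA : ∀ u v, 0 ≤ A u v) (k : ℕ)
    (u : S) (z : Fin k → S) (w : S) (h0 : (A ^ (k + 1)) u w = 0) : PW A k u z w = 0 := by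
  have hs := PW_sum A k u w
  rw [h0] at hs
  exact (Finset.sum_eq_zero_iff_of_nonneg fun z _ => PW_nonneg' hA k u z w).1 hs z (mem_univ z)

/-- the reversed word -/
def rv {k : ℕ} (z : Fin k → S) : Fin k → S := fun i => z i.rev

/-- reversal of a walk -/
theorem PW_rv [Fintype S] {A : Matrix S S ℝ} {μ : S → ℝ} {c : S → Bool} (h : Rev A μ c) (k : ℕ)
    (u : S) (z : Fin k → S) (w : S) : μ u * PW A k u z w = μ w * PW A k w (rv z) u := by
  induction k generalizing u w with
  | zero => exact h.rev u w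
  | succ k ih =>
    -- peel the first step on the left, the last one on the right
    have h1 : PW A (k + 1) u z w = A u (z 0) * PW A k (z 0) (Fin.tail z) w := rfl
    have h2 : PW A (k + 1) w (rv z) u = PW A k w (rv (Fin.tail z)) (z 0) * A (z 0) u := by
      have e : rv z = jn (z 0) (fun i : Fin 0 => i.elim0) k (rv (Fin.tail z)) ∘
          Fin.cast (by omega : k + 1 = 0 + (k + 1)) := by
        funext i
        rcases lt_or_ge (i : ℕ) k with hi | hi
        · have := jn_lt (z 0) (fun i : Fin 0 => i.elim0) k (rv (Fin.tail z)) i hi (by omega)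
          show rv z i = jn (z 0) (fun i : Fin 0 => i.elim0) k (rv (Fin.tail z)) ⟨(i : ℕ), _⟩
          rw [this]
          unfold rv Fin.tail
          congr 1
          apply Fin.ext
          simp only [Fin.val_rev, Fin.val_succ]
          omega
        · have hik : (i : ℕ) = k := by have := i.isLt; omega
          have := jn_eq (z 0) (fun i : Fin 0 => i.elim0) k (rv (Fin.tail z)) (by omega)
          have e2 : (Fin.cast (by omega : k + 1 = 0 + (k + 1)) i) =
              (⟨k, by omega⟩ : Fin (0 + (k + 1))) := Fin.ext hik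
          show rv z i = jn (z 0) (fun i : Fin 0 => i.elim0) k (rv (Fin.tail z))
            (Fin.cast (by omega : k + 1 = 0 + (k + 1)) i)
          rw [e2, this]
          unfold rv
          congr 1
          apply Fin.ext
          simp only [Fin.val_rev, Fin.val_zero]
          omega
      have h3 := PW_jn A (z 0) (fun i : Fin 0 => i.elim0) k (rv (Fin.tail z)) w u
      have h4 : ∀ (m : ℕ) (hm : k + 1 = m) (g : Fin m → S),
          PW A m w g u = PW A (k + 1) w (g ∘ Fin.cast hm) u := by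
        intro m hm g
        subst hm
        rfl
      rw [e, ← h4 _ (by omega), h3]
      rfl
    rw [h1, h2]
    have h5 := ih (z 0) (Fin.tail z) w
    calc μ u * (A u (z 0) * PW A k (z 0) (Fin.tail z) w)
        = (μ u * A u (z 0)) * PW A k (z 0) (Fin.tail z) w := by ring
      _ = A (z 0) u * (μ (z 0) * PW A k (z 0) (Fin.tail z) w) := by
        rw [h.rev u (z 0)]; ring
      _ = μ w * (PW A k w (rv (Fin.tail z)) (z 0) * A (z 0) u) := by rw [h5]; ring

end Vale.Agent.P050.Ears
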