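import Vale.Agent.P050.TDefs
import Vale.Agent.P050.H115.Red

/-!
Reduction of Sidorenko's inequality to regular target graphs, in terms of densities.
-/

open Finset

namespace Vale.Agent.P050.H115

lemma card_le_two_mul {V : Type} [Fintype V] (H : SimpleGraph V)
    (hiso : ∀ v, ∃ w, H.Adj v w) : Fintype.card V ≤ 2 * Nat.card H.edgeSet := by
  classical
  have h1 := H.sum_degrees_eq_twice_card_edges
  have h2 : Nat.card H.edgeSet = H.edgeFinset.card := by
    rw [Nat.card_eq_fintype_card, SimpleGraph.edgeFinset, Set.toFinset_card]
  rw [h2, ← h1]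
  calc Fintype.card V = ∑ _v : V, 1 := by simp
    _ ≤ ∑ v, H.degree v := by
      refine Finset.sum_le_sum fun v _ => ?_
      obtain ⟨w, hw⟩ := hiso v
      exact (SimpleGraph.degree_pos_iff_exists_adj H v).2 ⟨w, hw⟩

theorem sid_of_regular {V : Type} [Finite V] (H : SimpleGraph V) (hiso : ∀ v, ∃ w, H.Adj v w)
    (hreg : ∀ (U : Type) [Fintype U] [DecidableEq U] [Nonempty U] (G : SimpleGraph U)
      [DecidableRel G.Adj] (d : ℕ), 0 < d → (∀ u, G.degree u = d) →
        (Fintype.card U : ℝ) ^ Nat.card V * ((d : ℝ) / Fintype.card U) ^ Nat.card H.edgeSet ≤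
          (Nat.card (H →g G) : ℝ))
    {U : Type} [Finite U] (G : SimpleGraph U) :
    edgeDensity G ^ Nat.card H.edgeSet ≤ homDensity H G := by
  classical
  have : Fintype V := Fintype.ofFinite V
  have : Fintype U := Fintype.ofFinite U
  have hv := card_le_two_mul H hiso
  have hnn : 0 ≤ homDensity H G := by unfold homDensity; positivity
  rcases isEmpty_or_nonempty G.Dart with hE | hD
  · -- no edges
    have h0 : edgeDensity G = 0 := by
      have h1 := G.dart_card_eq_twice_card_edges
      rw [Fintype.card_eq_zero] at h1
      have h2 : Nat.card G.edgeSet = G.edgeFinset.card := by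
        rw [Nat.card_eq_fintype_card, SimpleGraph.edgeFinset, Set.toFinset_card]
      unfold edgeDensity
      rw [h2, show G.edgeFinset.card = 0 by omega]
      simp
    rcases Nat.eq_zero_or_pos (Nat.card H.edgeSet) with hm | hm
    · rw [hm] at hv ⊢
      have hV : IsEmpty V := by
        rw [← Fintype.card_eq_zero_iff]; omega
      have h3 : Nat.card (H →g G) = 1 := by
        rw [Nat.card_eq_one_iff_unique]
        refine ⟨⟨fun f g => ?_⟩, ⟨⟨fun x => (hV.false x).elim, fun {x} => (hV.false x).elim⟩⟩⟩
        apply RelHom.ext
        intro x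
        exact (hV.false x).elim
      unfold homDensity
      rw [h3]
      simp
    · rw [h0, zero_pow hm.ne']
      exact hnn
  · have hU : Nonempty U := ⟨(Classical.choice hD).fst⟩
    have hn : (0 : ℝ) < Fintype.card U := by exact_mod_cast Fintype.card_pos
    have key := reduction (H := H) (m := Nat.card H.edgeSet) hv
      (fun T _ _ K _ d hdeg hd => by
        rcases isEmpty_or_nonempty T with hT | hT
        · rcases isEmpty_or_nonempty V with hV | hV
          · have hm : Nat.card H.edgeSet = 0 := by
              rw [Nat.card_eq_zero]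
              left
              refine ⟨?_⟩
              rintro ⟨e, he⟩
              induction e with
              | h x y => exact hV.false x
            rw [hm, Fintype.card_eq_zero (α := V)]
            simp only [pow_zero, mul_one]
            have : Nonempty (H →g K) :=
              ⟨⟨fun x => (hV.false x).elim, fun {x} => (hV.false x).elim⟩⟩
            exact Nat.card_pos
          · have h4 : Fintype.card V ≠ 0 := Fintype.card_ne_zero
            rw [Fintype.card_eq_zero (α := T), zero_pow h4]
            simp
        · have h1 := hreg T K d hd hdeg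
          have hT0 : (0 : ℝ) < Fintype.card T := by exact_mod_cast Fintype.card_pos
          rw [div_pow, ← mul_div_assoc, div_le_iff₀ (by positivity),
            Nat.card_eq_fintype_card (α := V)] at h1
          exact_mod_cast h1) G hD
    have h2 : Nat.card G.edgeSet = G.edgeFinset.card := by
      rw [Nat.card_eq_fintype_card, SimpleGraph.edgeFinset, Set.toFinset_card]
    rw [G.dart_card_eq_twice_card_edges, ← h2] at key
    unfold edgeDensity homDensity
    rw [Nat.card_eq_fintype_card (α := U), Nat.card_eq_fintype_card (α := V), div_pow,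
      div_le_div_iff₀ (by positivity) (by positivity)]
    obtain ⟨j, hj⟩ := Nat.exists_eq_add_of_le hv
    have hj' : 2 * Nat.card H.edgeSet - Fintype.card V = j := by omega
    rw [hj'] at key
    have key' : (2 * (Nat.card G.edgeSet : ℝ)) ^ Nat.card H.edgeSet ≤
        (Nat.card (H →g G) : ℝ) * (Fintype.card U : ℝ) ^ j := by exact_mod_cast key
    calc (2 * (Nat.card G.edgeSet : ℝ)) ^ Nat.card H.edgeSet *
          (Fintype.card U : ℝ) ^ Fintype.card V
        ≤ ((Nat.card (H →g G) : ℝ) * (Fintype.card U : ℝ) ^ j) *
          (Fintype.card U : ℝ) ^ Fintype.card V := by gcongr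
      _ = (Nat.card (H →g G) : ℝ) *
          ((Fintype.card U : ℝ) ^ 2) ^ Nat.card H.edgeSet := by
        rw [← pow_mul, hj, pow_add]
        ring

end Vale.Agent.P050.H115
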