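import Vale.Agent.P050.R3.H257.Base
import Vale.Agent.P050.R3.H257.Num

/-!
# P050, cycles with ears: the kernel inequalities for a reversible stochastic matrix with sides
-/

namespace Vale.Agent.P050.Ears

open Finset Matrix

variable {S : Type*} [Fintype S] [DecidableEq S]

namespace Rev

variable {A : Matrix S S ℝ} {μ : S → ℝ} {c : S → Bool} (h : Rev A μ c)

include h

theorem pow_nonneg (k : ℕ) (u v : S) : 0 ≤ (A ^ k) u v := by
  induction k generalizing u v with
  | zero => rw [pow_zero, Matrix.one_apply]; split_ifs <;> norm_num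
  | succ k ih =>
    rw [pow_succ, Matrix.mul_apply]
    exact Finset.sum_nonneg fun w _ => mul_nonneg (ih u w) (h.nonneg w v)

theorem pow_rev (k : ℕ) (u v : S) : μ u * (A ^ k) u v = μ v * (A ^ k) v u := by
  induction k generalizing u v with
  | zero =>
    rw [pow_zero, Matrix.one_apply, Matrix.one_apply]
    rcases eq_or_ne u v with rfl | huv
    · rfl
    · rw [if_neg huv, if_neg huv.symm, mul_zero, mul_zero]
  | succ k ih =>
    have e1 : (A ^ (k + 1)) u v = ∑ w, (A ^ k) u w * A w v := by
      rw [pow_succ, Matrix.mul_apply]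
    have e2 : (A ^ (k + 1)) v u = ∑ w, A v w * (A ^ k) w u := by
      rw [pow_succ', Matrix.mul_apply]
    rw [e1, e2, Finset.mul_sum, Finset.mul_sum]
    refine Finset.sum_congr rfl fun w _ => ?_
    calc μ u * ((A ^ k) u w * A w v) = (μ u * (A ^ k) u w) * A w v := by ring
      _ = (μ w * (A ^ k) w u) * A w v := by rw [ih]
      _ = (μ w * A w v) * (A ^ k) w u := by ring
      _ = (μ v * A v w) * (A ^ k) w u := by rw [h.rev w v]
      _ = μ v * (A v w * (A ^ k) w u) := by ring

theorem pow_row (k : ℕ) (u : S) : ∑ v, (A ^ k) u v = 1 := by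
  induction k with
  | zero => simp [Matrix.one_apply]
  | succ k ih =>
    simp only [pow_succ, Matrix.mul_apply]
    rw [Finset.sum_comm]
    simp only [← Finset.mul_sum, h.row, mul_one, ih]

theorem kap_nonneg (k : ℕ) (u v : S) : 0 ≤ kap A μ k u v :=
  div_nonneg (h.pow_nonneg k u v) (h.pos v).le

theorem kap_symm (k : ℕ) (u v : S) : kap A μ k u v = kap A μ k v u := by
  unfold kap
  rw [div_eq_div_iff (h.pos v).ne' (h.pos u).ne', mul_comm, h.pow_rev k u v, mul_comm]

theorem pow_eq (k : ℕ) (u v : S) : (A ^ k) u v = kap A μ k u v * μ v := by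
  unfold kap
  rw [div_mul_cancel₀ _ (h.pos v).ne']

theorem pow_eq' (k : ℕ) (u v : S) : (A ^ k) v u = kap A μ k u v * μ u := by
  rw [h.kap_symm, ← h.pow_eq]

theorem kap_add (a b : ℕ) (u v : S) :
    kap A μ (a + b) u v = ∑ w, kap A μ a u w * kap A μ b w v * μ w := by
  unfold kap
  rw [pow_add, Matrix.mul_apply, Finset.sum_div]
  refine Finset.sum_congr rfl fun w _ => ?_
  have := (h.pos w).ne'
  field_simp

theorem pow_alt (k : ℕ) (u v : S) (huv : c v ≠ xor (c u) (decide (k % 2 = 1))) :
    (A ^ k) u v = 0 := by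
  induction k generalizing v with
  | zero =>
    rw [pow_zero, Matrix.one_apply, if_neg]
    rintro rfl
    simp at huv
  | succ k ih =>
    rw [pow_succ, Matrix.mul_apply]
    refine Finset.sum_eq_zero fun w _ => ?_
    by_cases hw : c w = xor (c u) (decide (k % 2 = 1))
    · have : c w = c v := by
        rw [hw]
        have hk : decide ((k + 1) % 2 = 1) = !decide (k % 2 = 1) := by
          rcases Nat.mod_two_eq_zero_or_one k with h0 | h0
          · have : (k + 1) % 2 = 1 := by omega
            rw [h0, this]; rfl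
          · have : (k + 1) % 2 = 0 := by omega
            rw [h0, this]; rfl
        rw [hk] at huv
        revert huv
        generalize c v = a
        generalize c u = b
        generalize decide (k % 2 = 1) = e
        revert a b e
        decide
      rw [h.alt w v this, mul_zero]
    · rw [ih w hw, zero_mul]

/-- weighted Cauchy-Schwarz: returning kernels are at least one -/
theorem kap_ge (m : ℕ) (u : S) : 1 ≤ kap A μ (2 * m) u u := by
  -- the side of the midpoint
  set b := xor (c u) (decide (m % 2 = 1)) with hb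
  have h1 : kap A μ (2 * m) u u = ∑ w, kap A μ m u w ^ 2 * μ w := by
    rw [two_mul, h.kap_add]
    exact Finset.sum_congr rfl fun w _ => by rw [h.kap_symm m w u]; ring
  have h2 : ∑ w, kap A μ m u w * μ w = 1 := by
    rw [← h.pow_row m u]
    exact Finset.sum_congr rfl fun w _ => (h.pow_eq m u w).symm
  have h3 : ∀ w, kap A μ m u w ^ 2 * μ w ≥
      2 * (kap A μ m u w * μ w) - (if c w = b then μ w else 0) := by
    intro w
    by_cases hw : c w = b
    · rw [if_pos hw]
      nlinarith [h.pos w, mul_nonneg (h.pos w).le (sq_nonneg (kap A μ m u w - 1))]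
    · rw [if_neg hw]
      have h0 : kap A μ m u w = 0 := by
        unfold kap
        rw [h.pow_alt m u w hw, zero_div]
      rw [h0]; simp
  calc (1 : ℝ) = 2 * ∑ w, kap A μ m u w * μ w - ∑ w, (if c w = b then μ w else 0) := by
        rw [h2, h.mass b]; norm_num
    _ = ∑ w, (2 * (kap A μ m u w * μ w) - (if c w = b then μ w else 0)) := by
        rw [Finset.sum_sub_distrib, Finset.mul_sum]
    _ ≤ ∑ w, kap A μ m u w ^ 2 * μ w := Finset.sum_le_sum fun w _ => h3 w
    _ = _ := h1.symm

theorem tr_ge (b : Bool) (m : ℕ) : 1 ≤ tr A c b (2 * m) := by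
  unfold tr
  rw [← h.mass b]
  refine Finset.sum_le_sum fun u _ => ?_
  split_ifs
  · rw [h.pow_eq]
    have := h.kap_ge m u
    have := h.pos u
    nlinarith
  · exact le_refl _

theorem tr_not (b : Bool) (n : ℕ) (hn : 1 ≤ n) : tr A c (!b) n = tr A c b n := by
  obtain ⟨k, rfl⟩ := Nat.exists_eq_add_of_le' hn
  have key : ∀ x y z : Bool, x ≠ y → ((y = !z) ↔ (x = z)) := by decide
  unfold tr
  have e1 : ∀ u, (if c u = b then (A ^ (k + 1)) u u else 0) =
      ∑ v, (if c u = b then A u v * (A ^ k) v u else 0) := by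
    intro u
    split_ifs
    · rw [pow_succ', Matrix.mul_apply]
    · simp
  have e2 : ∀ v, (if c v = (!b) then (A ^ (k + 1)) v v else 0) =
      ∑ u, (if c v = (!b) then (A ^ k) v u * A u v else 0) := by
    intro v
    split_ifs
    · rw [pow_succ, Matrix.mul_apply]
    · simp
  simp only [e1, e2]
  rw [Finset.sum_comm]
  refine Finset.sum_congr rfl fun u _ => Finset.sum_congr rfl fun v _ => ?_
  rcases eq_or_ne (c u) (c v) with huv | huv
  · rw [h.alt u v huv]; simp
  · have : (c v = !b) ↔ (c u = b) := key _ _ _ huv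
    by_cases hb : c u = b
    · rw [if_pos hb, if_pos (this.2 hb), mul_comm]
    · rw [if_neg hb, if_neg (fun hc => hb (this.1 hc))]

theorem pow_pos_add (l s : ℕ) {u v : S} (hl : 0 < (A ^ l) u v) :
    0 < (A ^ (l + 2 * s)) u v := by
  have h3 : 0 < (A ^ (2 * s)) v v := by
    rw [h.pow_eq]
    exact mul_pos (lt_of_lt_of_le one_pos (h.kap_ge s v)) (h.pos v)
  rw [pow_add, Matrix.mul_apply]
  exact Finset.sum_pos' (fun x _ => mul_nonneg (h.pow_nonneg _ _ _) (h.pow_nonneg _ _ _))
    ⟨v, mem_univ v, mul_pos hl h3⟩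

/-- (i) -/
theorem log_long (b : Bool) (a r : ℕ) :
    tr A c b (a + r) * Real.log (tr A c b (a + r)) ≤
      ∑ u, ∑ v, (if c u = b then (A ^ a) u v * (A ^ r) v u *
        Real.log (kap A μ a u v) else 0) := by
  have h1 := H257.log_sum (univ : Finset (S × S))
    (fun p => if c p.1 = b then (A ^ r) p.2 p.1 * μ p.2 else 0)
    (fun p => kap A μ a p.1 p.2)
    (fun p _ => by
      split_ifs
      · exact mul_nonneg (h.pow_nonneg r _ _) (h.pos _).le
      · exact le_refl _)
    (fun p _ => h.kap_nonneg a _ _)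
  rw [Fintype.sum_prod_type, Fintype.sum_prod_type, Fintype.sum_prod_type] at h1
  have h2 : ∑ x : S, ∑ y : S, (if c x = b then (A ^ r) y x * μ y else 0) * kap A μ a x y =
      tr A c b (a + r) := by
    unfold tr
    refine Finset.sum_congr rfl fun u _ => ?_
    split_ifs with hu
    · rw [pow_add, Matrix.mul_apply]
      refine Finset.sum_congr rfl fun v _ => ?_
      rw [h.pow_eq a u v]; ring
    · simp
  have h3 : ∑ x : S, ∑ y : S, (if c x = b then (A ^ r) y x * μ y else 0) = 1 := by
    rw [← h.mass b]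
    refine Finset.sum_congr rfl fun u _ => ?_
    split_ifs with hu
    · have : ∀ y, (A ^ r) y u * μ y = μ u * (A ^ r) u y := fun y => by
        rw [mul_comm, h.pow_rev]
      simp only [this]
      rw [← Finset.mul_sum, h.pow_row, mul_one]
    · simp
  rw [h2, h3, div_one] at h1
  refine h1.trans (le_of_eq ?_)
  refine Finset.sum_congr rfl fun u _ => Finset.sum_congr rfl fun v _ => ?_
  split_ifs
  · rw [h.pow_eq a u v]; ring
  · simp

/-- (ii), for a fixed starting state -/
theorem log_short (a m : ℕ) (u : S) :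
    0 ≤ ∑ v, (A ^ a) u v * (A ^ (a + 2 * m)) v u *
      (Real.log (kap A μ a u v) - Real.log (kap A μ (a + 2 * m) u v)) := by
  set g : S → ℝ := fun v => kap A μ a u v with hg
  set k : S → ℝ := fun v => kap A μ (a + 2 * m) u v with hk
  have hk' : ∀ v, k v = ∑ w, (A ^ (2 * m)) v w * g w := by
    intro v
    simp only [hk, hg]
    rw [h.kap_symm, add_comm a (2 * m), h.kap_add]
    refine Finset.sum_congr rfl fun w _ => ?_
    rw [h.pow_eq (2 * m) v w, h.kap_symm a w u]; ring
  have hg0 : ∀ v, 0 ≤ g v := fun v => h.kap_nonneg a u v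
  -- the sum in terms of `g` and `k`
  have e0 : ∑ v, (A ^ a) u v * (A ^ (a + 2 * m)) v u *
      (Real.log (kap A μ a u v) - Real.log (kap A μ (a + 2 * m) u v)) =
      μ u * (∑ v, μ v * g v * k v * Real.log (g v) - ∑ v, μ v * g v * k v * Real.log (k v)) := by
    rw [← Finset.sum_sub_distrib, Finset.mul_sum]
    refine Finset.sum_congr rfl fun v _ => ?_
    rw [h.pow_eq a u v, h.pow_eq' (a + 2 * m) u v]
    simp only [hg, hk]
    ring
  rw [e0]
  refine mul_nonneg (h.pos u).le (sub_nonneg.2 ?_)
  have e1 : ∑ v, μ v * g v * k v * Real.log (g v) =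
      ∑ w, μ w * g w * ∑ v, (A ^ (2 * m)) w v * g v * Real.log (g v) := by
    have s1 : ∑ v, μ v * g v * k v * Real.log (g v) =
        ∑ v, ∑ w, (μ v * (A ^ (2 * m)) v w) * g w * (g v * Real.log (g v)) := by
      refine Finset.sum_congr rfl fun v _ => ?_
      rw [hk' v, Finset.mul_sum, Finset.sum_mul]
      exact Finset.sum_congr rfl fun w _ => by ring
    rw [s1, Finset.sum_comm]
    refine Finset.sum_congr rfl fun w _ => ?_
    rw [Finset.mul_sum]
    refine Finset.sum_congr rfl fun v _ => ?_
    rw [h.pow_rev (2 * m) v w]; ring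
  rw [e1]
  refine Finset.sum_le_sum fun w _ => ?_
  have h1 := H257.log_sum (univ : Finset S) (fun v => (A ^ (2 * m)) w v) g
    (fun v _ => h.pow_nonneg _ _ _) (fun v _ => hg0 v)
  rw [h.pow_row, ← hk' w, div_one] at h1
  have h2 := mul_le_mul_of_nonneg_left h1 (mul_nonneg (h.pos w).le (hg0 w))
  linarith

/-- (iii), for a fixed starting state -/
theorem log_test (l s r : ℕ) (u : S) :
    (∑ w, (A ^ (l + s)) u w * (A ^ r) w u *
        (Real.log (kap A μ (l + s) u w) - Real.log (kap A μ r u w))) +
      ∑ v, (A ^ l) u v * (A ^ (s + r)) v u * Real.log (kap A μ (s + r) u v) ≤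
    ∑ v, (A ^ l) u v * (A ^ (s + r)) v u * Real.log (kap A μ (l + 2 * s) u v) := by
  have e1 : ∑ w, (A ^ (l + s)) u w * (A ^ r) w u *
      (Real.log (kap A μ (l + s) u w) - Real.log (kap A μ r u w)) =
      ∑ v, (A ^ l) u v * ∑ w, (A ^ s) v w * (A ^ r) w u *
        (Real.log (kap A μ (l + s) u w) - Real.log (kap A μ r u w)) := by
    simp only [Finset.mul_sum]
    rw [Finset.sum_comm]
    refine Finset.sum_congr rfl fun w _ => ?_
    rw [pow_add A l s, Matrix.mul_apply]
    simp only [Finset.sum_mul]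
    exact Finset.sum_congr rfl fun v _ => by ring
  rw [e1, ← Finset.sum_add_distrib]
  refine Finset.sum_le_sum fun v _ => ?_
  rcases (h.pow_nonneg l u v).eq_or_lt with h0 | hl
  · rw [← h0]; simp
  have hsr : (A ^ (s + r)) v u = ∑ w, (A ^ s) v w * (A ^ r) w u := by
    rw [pow_add, Matrix.mul_apply]
  rcases (h.pow_nonneg (s + r) v u).eq_or_lt with h0 | hC
  · have hz : ∀ w, (A ^ s) v w * (A ^ r) w u = 0 := by
      intro w
      rw [← h0] at hsr
      exact (Finset.sum_eq_zero_iff_of_nonneg fun w _ =>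
        mul_nonneg (h.pow_nonneg _ _ _) (h.pow_nonneg _ _ _)).1 hsr.symm w (mem_univ w)
    rw [← h0]
    simp [hz]
  -- the main case
  set q : S → ℝ := fun w => (A ^ s) v w * (A ^ r) w u with hq
  set t : S → ℝ := fun w => kap A μ (l + s) u w / kap A μ r u w with ht
  have hqs : ∑ w, q w = (A ^ (s + r)) v u := hsr.symm
  have hq0 : ∀ w, 0 ≤ q w := fun w => mul_nonneg (h.pow_nonneg _ _ _) (h.pow_nonneg _ _ _)
  have hpos : ∀ w, 0 < q w → 0 < kap A μ r u w ∧ 0 < kap A μ (l + s) u w := by
    intro w hw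
    have h1 : 0 < (A ^ s) v w := by
      rcases (h.pow_nonneg s v w).eq_or_lt with h2 | h2
      · rw [hq] at hw; simp only [← h2, zero_mul, lt_irrefl] at hw
      · exact h2
    have h2 : 0 < (A ^ r) w u := by
      rcases (h.pow_nonneg r w u).eq_or_lt with h2 | h2
      · rw [hq] at hw; simp only [← h2, mul_zero, lt_irrefl] at hw
      · exact h2
    refine ⟨?_, ?_⟩
    · rw [h.kap_symm]
      exact div_pos h2 (h.pos u)
    · refine div_pos ?_ (h.pos w)
      rw [pow_add, Matrix.mul_apply]
      exact Finset.sum_pos' (fun x _ => mul_nonneg (h.pow_nonneg _ _ _) (h.pow_nonneg _ _ _))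
        ⟨v, mem_univ v, mul_pos hl h1⟩
  have hT : ∑ w, q w * t w ≤ kap A μ (l + 2 * s) u v * μ u := by
    have e : l + 2 * s = (l + s) + s := by ring
    rw [e, h.kap_add, Finset.sum_mul]
    refine Finset.sum_le_sum fun w _ => ?_
    rcases (h.kap_nonneg r u w).eq_or_lt with h2 | h2
    · simp only [ht, ← h2, div_zero, mul_zero]
      exact mul_nonneg (mul_nonneg (mul_nonneg (h.kap_nonneg _ _ _) (h.kap_nonneg _ _ _))
        (h.pos w).le) (h.pos u).le
    · simp only [hq, ht]
      rw [h.pow_eq s v w, h.pow_eq' r u w, h.kap_symm s v w]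
      apply le_of_eq
      field_simp
  have hJ := H257.log_jensen (univ : Finset S) q t hqs (fun w _ => hq0 w)
    (fun w _ hw => div_pos (hpos w hw).2 (hpos w hw).1) hT hC
  have hT0 : 0 < kap A μ (l + 2 * s) u v := div_pos (h.pow_pos_add l s hl) (h.pos v)
  have hC0 : 0 < kap A μ (s + r) u v := by
    rw [h.kap_symm]; exact div_pos hC (h.pos u)
  have hdiv : kap A μ (l + 2 * s) u v * μ u / (A ^ (s + r)) v u =
      kap A μ (l + 2 * s) u v / kap A μ (s + r) u v := by
    rw [h.pow_eq' (s + r) u v]
    have := (h.pos u).ne'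
    have := hC0.ne'
    field_simp
  rw [hdiv, Real.log_div hT0.ne' hC0.ne'] at hJ
  have e2 : ∑ w, (A ^ s) v w * (A ^ r) w u *
      (Real.log (kap A μ (l + s) u w) - Real.log (kap A μ r u w)) =
      ∑ w, q w * Real.log (t w) := by
    refine Finset.sum_congr rfl fun w _ => ?_
    rcases (hq0 w).eq_or_lt with h2 | h2
    · change q w * _ = q w * _
      rw [← h2]; simp
    · change q w * _ = q w * _
      rw [ht, Real.log_div (hpos w h2).2.ne' (hpos w h2).1.ne']
  rw [e2]
  have h5 := mul_le_mul_of_nonneg_left hJ hl.le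
  have e3 : (A ^ l) u v * ((A ^ (s + r)) v u *
      (Real.log (kap A μ (l + 2 * s) u v) - Real.log (kap A μ (s + r) u v))) =
      (A ^ l) u v * (A ^ (s + r)) v u * Real.log (kap A μ (l + 2 * s) u v) -
      (A ^ l) u v * (A ^ (s + r)) v u * Real.log (kap A μ (s + r) u v) := by ring
  rw [e3] at h5
  linarith

/-- ears not longer than the complementary arc -/
theorem log_ear (b : Bool) (l s m : ℕ) :
    tr A c b (l + (s + (l + s + 2 * m))) *
      Real.log (tr A c b (l + (s + (l + s + 2 * m)))) ≤
    ∑ u, ∑ v, (if c u = b then (A ^ l) u v * (A ^ (s + (l + s + 2 * m))) v u *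
      Real.log (kap A μ (l + 2 * s) u v) else 0) := by
  have h3 := h.log_long b (s + (l + s + 2 * m)) l
  rw [show s + (l + s + 2 * m) + l = l + (s + (l + s + 2 * m)) by ring] at h3
  refine h3.trans (Finset.sum_le_sum fun u _ => ?_)
  by_cases hu : c u = b
  · simp only [if_pos hu]
    have h1 := h.log_test l s (l + s + 2 * m) u
    have h2 := h.log_short (l + s) m u
    have e3 : ∑ v, (A ^ (s + (l + s + 2 * m))) u v * (A ^ l) v u *
        Real.log (kap A μ (s + (l + s + 2 * m)) u v) =
        ∑ v, (A ^ l) u v * (A ^ (s + (l + s + 2 * m))) v u *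
          Real.log (kap A μ (s + (l + s + 2 * m)) u v) := by
      refine Finset.sum_congr rfl fun v _ => ?_
      rw [h.pow_eq _ u v, h.pow_eq' l u v, h.pow_eq l u v, h.pow_eq' _ u v]
      ring
    rw [e3]
    linarith
  · simp only [if_neg hu]
    exact le_refl _

end Rev

end Vale.Agent.P050.Ears
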